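import Mathlib
import Vale.Agent.Lib.P183.BK.DataS
import Vale.Agent.Lib.P183.BK.DataL
import Vale.Agent.Lib.P183.BK.L7

/-!
# P183 (backup pipeline): the checker functions

Everything here is a computation on natural numbers.  Points of the `G`-set are pairs
`(p, q)` with `p < 36`, `q < 960`.
-/

namespace Vale.Agent.Lib.P183.BK

/-- joins in `L7` -/
def L7.sup (x y : L7) : L7 :=
  if L7.le x y then y else if L7.le y x then x else
  match x, y with
  | .j1, .j2 => .a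
  | .j2, .j1 => .a
  | _, _ => .top

def L7.ofN : ℕ → L7
  | 0 => .bot | 1 => .j1 | 2 => .j2 | 3 => .a | 4 => .b | 5 => .c | _ => .top

def allL (f : L7 → Bool) : Bool :=
  f .bot && f .j1 && f .j2 && f .a && f .b && f .c && f .top

/-- `force n f = f n`; used to make the kernel evaluate `n` first -/
def force {α : Type} (n : ℕ) (f : ℕ → α) : α :=
  match n with
  | 0 => f 0
  | m + 1 => f (m + 1)

/-- entry `i` of the table `t` with entries of `w` bits -/
def lk (t w i : ℕ) : ℕ :=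
  force i fun j => Nat.land (Nat.shiftRight t (Nat.mul w j)) (Nat.sub (Nat.pow 2 w) 1)

def allLt : ℕ → (ℕ → Bool) → Bool
  | 0, _ => true
  | n + 1, f => f n && allLt n f

def f1 (k p : ℕ) : ℕ := lk (match k with | 0 => T1a | 1 => T1b | _ => T1s) 6 p % 36
def f2 (k q : ℕ) : ℕ := lk (match k with | 0 => T2a | 1 => T2b | _ => T2s) 10 q % 960
def fB (k r : ℕ) : ℕ := lk (match k with | 0 => TBa | 1 => TBb | _ => TBs) 7 r
def fJ (k r : ℕ) : ℕ := lk (match k with | 0 => TJa | 1 => TJb | _ => TJs) 9 r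

/-- the action of the generator number `k` -/
def stepN (k : ℕ) (c : ℕ × ℕ) : ℕ × ℕ := (f1 k c.1, f2 k c.2)

/-- evaluation of a word (base four digits, leading sentinel `1`) -/
def evW : ℕ → ℕ → ℕ × ℕ → ℕ × ℕ
  | 0, _, c => c
  | n + 1, w, c => if w ≤ 1 then c else evW n (w / 4) (stepN (w % 4) c)

def mv (w1 w2 d : ℕ) (c : ℕ × ℕ) : ℕ × ℕ :=
  match d with
  | 0 => stepN 0 c
  | 1 => stepN 1 c
  | 2 => evW 20 w1 c
  | _ => evW 20 w2 c

/-- evaluation of a derivation -/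
def evD (w1 w2 : ℕ) : ℕ → ℕ → ℕ × ℕ → ℕ × ℕ
  | 0, _, c => c
  | n + 1, D, c => if D ≤ 1 then c else evD w1 w2 n (D / 4) (mv w1 w2 (D % 4) c)

def repN (o : ℕ) : ℕ × ℕ := (lk REP 16 o / 1024, lk REP 16 o % 1024)
def labL (o : ℕ) : L7 := L7.ofN (lk LAB 3 o)
def wrd (o : ℕ) : ℕ := lk WRD 34 o

def kBN (c : ℕ × ℕ) : ℕ := force c.1 fun p => force c.2 fun q => lk (KBr p) 7 q
def kJN (c : ℕ × ℕ) : ℕ := force c.1 fun p => force c.2 fun q => lk (KJr p) 9 q
def orbE (c : ℕ × ℕ) : ℕ := force c.1 fun p => force c.2 fun q => lk (ORBr p) 16 q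
def orbN (c : ℕ × ℕ) : ℕ := orbE c % 1024
def hm (c : ℕ × ℕ) : ℕ × ℕ := (stepN 1)^[orbE c / 8192] ((stepN 0)^[orbE c / 1024 % 8] c)

/-- the seven congruences are the kernels of these maps -/
def keyN : L7 → ℕ × ℕ → ℕ × ℕ
  | .bot, c => c
  | .j1, c => (c.1, kBN c)
  | .j2, c => (c.1, kJN c)
  | .a, c => (c.1, 0)
  | .b, c => (0, kBN c)
  | .c, c => (0, c.2)
  | .top, _ => (0, 0)

def zN : L7 → ℕ × ℕ
  | .bot => (0, 0)
  | .j1 => (0, 848)
  | .j2 => (0, 165)
  | .a => (0, 32)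
  | .b => (1, 8)
  | .c => (11, 0)
  | .top => (1, 1)

def wz : L7 → ℕ
  | .bot => 1
  | .j1 => 6849856102
  | .j2 => 98694
  | .a => 1638
  | .b => 411778
  | .c => 6178
  | .top => 6

/-- derivations of `z (x ⊔ y)` from `z x` and `z y` (incomparable pairs) -/
def joinD : L7 → L7 → ℕ
  | .j1, .j2 => 4963
  | .j1, .c => 417159
  | .j2, .b => 269579
  | .j2, .c => 82839
  | .a, .b => 23819
  | .a, .c => 291399
  | .b, .c => 5278615
  | _, _ => 1

/-- derivations of `z y` from `z x` for `y < x < top`, `y ≠ bot` -/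
def chainD : L7 → L7 → ℕ
  | .a, .j1 => 67668002
  | .a, .j2 => 84114
  | .b, .j1 => 84098
  | _, _ => 1

def chkRep (o : ℕ) : Bool :=
  evW 20 (wrd o) (0, 0) == repN o &&
  evD (wrd o) 1 24 (lk DFW 40 o) (0, 0) == zN (labL o) &&
  (labL o == .top || evD (wz (labL o)) 1 24 (lk DBW 40 o) (0, 0) == repN o)

def chkX (p q : ℕ) : Bool :=
  hm (p, q) == repN (orbN (p, q)) && decide (orbN (p, q) < 847) &&
  keyN (labL (orbN (p, q))) (p, q) == keyN (labL (orbN (p, q))) (0, 0) &&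
  allL (fun l => !(keyN l (p, q) == keyN l (0, 0)) || L7.le (labL (orbN (p, q))) l) &&
  allLt 3 (fun k => kBN (stepN k (p, q)) == fB k (kBN (p, q)) &&
    kJN (stepN k (p, q)) == fJ k (kJN (p, q)))

def chkOrd1 (p : ℕ) : Bool :=
  (f1 0)^[7] p == p && (f1 1)^[6] p == p && (f1 2)^[2] p == p

def chkOrd2 (q : ℕ) : Bool :=
  (f2 0)^[7] q == q && (f2 1)^[6] q == q && (f2 2)^[2] q == q

def chkMisc : Bool :=
  stepN 0 (0, 0) == (0, 0) && stepN 1 (0, 0) == (0, 0) &&
  allL (fun x => evW 20 (wz x) (0, 0) == zN x && keyN x (zN x) == keyN x (0, 0) &&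
    decide ((zN x).1 < 36) && decide ((zN x).2 < 960) &&
    allL (fun y =>
      (L7.le x y || !(keyN y (zN x) == keyN y (0, 0))) &&
      (L7.le x y || L7.le y x || evD (wz x) (wz y) 24 (joinD x y) (0, 0) == zN (L7.sup x y)
        || evD (wz y) (wz x) 24 (joinD y x) (0, 0) == zN (L7.sup x y)) &&
      (!(L7.le y x) || x == .top || y == .bot || x == y ||
        evD (wz x) 1 24 (chainD x y) (0, 0) == zN y)))

end Vale.Agent.Lib.P183.BK
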